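import Vale.Agent.P043.H467.Main

/-!
# P043: one polycube without periodic tilings, in `ℤ^d` and in `ℝ^d`

The cells `z + RF` (`z ∈ F`) of `Vale.Agent.P043.H467.Fin` are unions of cubes of the grid
`(1/8) ℤ^d`.  Scaled by `8` they become a polycube, which is studied here both as a tile of `ℤ^d`
and as a tile of `ℝ^d`.
-/

set_option autoImplicit false

namespace Vale.Agent.P043.H703

open MeasureTheory Vale.Agent.P043 Vale.Agent.P043.Eu Vale.Agent.P043.H467
  Vale.Agent.P043.H467.Eu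

variable {d : ℕ}

/-- the union of the closed unit cubes `p + [0,1]^d`, `p ∈ P` -/
def Cub (P : Finset (Fin d → ℤ)) : Set (Fin d → ℝ) :=
  ⋃ p ∈ P, Set.Icc (fun i => (p i : ℝ)) (fun i => (p i : ℝ) + 1)

/-- the union of the half-open unit cubes `p + [0,1)^d`, `p ∈ P` -/
def Hlf (P : Finset (Fin d → ℤ)) : Set (Fin d → ℝ) := {y | (fun i => ⌊y i⌋) ∈ P}

theorem mem_Cub {P : Finset (Fin d → ℤ)} {y : Fin d → ℝ} :
    y ∈ Cub P ↔ ∃ p ∈ P, ∀ i, (p i : ℝ) ≤ y i ∧ y i ≤ (p i : ℝ) + 1 := by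
  simp only [Cub, Set.mem_iUnion, Set.mem_Icc, Pi.le_def, exists_prop, forall_and]

theorem Hlf_subset (P : Finset (Fin d → ℤ)) : Hlf P ⊆ Cub P := by
  intro y hy
  rw [mem_Cub]
  exact ⟨_, hy, fun i => ⟨Int.floor_le _, (Int.lt_floor_add_one _).le⟩⟩

theorem Cub_bounded (P : Finset (Fin d → ℤ)) : Bornology.IsBounded (Cub P) := by
  unfold Cub
  rw [Bornology.isBounded_biUnion_finset]
  intro p _
  exact Metric.isBounded_Icc _ _

theorem Cub_closed (P : Finset (Fin d → ℤ)) : IsClosed (Cub P) := by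
  unfold Cub
  exact Set.Finite.isClosed_biUnion P.finite_toSet fun p _ => isClosed_Icc

theorem ae_nonint : ∀ᵐ x : Fin d → ℝ, ∀ i, ∀ n : ℤ, x i ≠ n := by
  rw [ae_all_iff]
  intro i
  rw [ae_all_iff]
  intro n
  have h : volume {x : Fin d → ℝ | x i = n} = 0 := by
    rw [volume_pi]
    exact Measure.pi_hyperplane _ i _
  rw [ae_iff]
  refine measure_mono_null ?_ h
  intro x hx
  simpa only [ne_eq, not_not, Set.mem_ofPred_eq] using hx

theorem null_cub (P : Finset (Fin d → ℤ)) : volume (Cub P \ Hlf P) = 0 := by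
  refine measure_mono_null ?_ (ae_iff.1 (ae_nonint (d := d)))
  rintro y ⟨hy, hy'⟩ hg
  apply hy'
  rw [mem_Cub] at hy
  obtain ⟨p, hp, h⟩ := hy
  have e : (fun i => ⌊y i⌋) = p := by
    funext i
    rw [Int.floor_eq_iff]
    refine ⟨(h i).1, lt_of_le_of_ne (h i).2 fun e => hg i (p i + 1) ?_⟩
    rw [e]
    push_cast
    rfl
  change (fun i => ⌊y i⌋) ∈ P
  rw [e]
  exact hp

/-- sets of positive measure tile with countable translation sets -/
theorem countable_of_tiles {S A : Set (Fin d → ℝ)} (hS : MeasurableSet S) (hpos : 0 < volume S)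
    (h : TilesAE S A) : A.Countable := by
  have h1 := Measure.countable_meas_pos_of_disjoint_iUnion₀ (μ := (volume : Measure (Fin d → ℝ)))
    (As := fun a : A => {x : Fin d → ℝ | x - (a : Fin d → ℝ) ∈ S})
    (fun a => ((measurable_id.sub_const (a : Fin d → ℝ)) hS).nullMeasurableSet)
    (fun a b hab => h.2 a.1 a.2 b.1 b.2 fun e => hab (Subtype.ext e))
  have h2 : {a : A | 0 < volume {x : Fin d → ℝ | x - (a : Fin d → ℝ) ∈ S}} = Set.univ := by
    rw [Set.eq_univ_iff_forall]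
    intro a
    change 0 < volume {x : Fin d → ℝ | x - (a : Fin d → ℝ) ∈ S}
    rw [vol_shift]
    exact hpos
  rw [h2, Set.countable_univ_iff] at h1
  exact Set.countable_coe_iff.1 h1

/-- larger set, null difference -/
theorem tiles_larger {S T A : Set (Fin d → ℝ)} (hST : S ⊆ T) (hn : volume (T \ S) = 0)
    (h : TilesAE S A) : TilesAE T A := by
  obtain ⟨h1, h2⟩ := h
  refine ⟨measure_mono_null ?_ h1, fun a ha b hb hab => ?_⟩
  · apply Set.compl_subset_compl.2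
    exact Set.iUnion₂_mono fun a _ x hx => hST hx
  · have h3 := h2 a ha b hb hab
    have h4 : ∀ a : Fin d → ℝ, volume {x | x - a ∈ T \ S} = 0 := by
      intro a
      rw [vol_shift]
      exact hn
    refine measure_mono_null ?_ (measure_union_null h3 (measure_union_null (h4 a) (h4 b)))
    rintro x ⟨hx, hx'⟩
    by_cases ha' : x - a ∈ S
    · by_cases hb' : x - b ∈ S
      · exact Or.inl ⟨ha', hb'⟩
      · exact Or.inr (Or.inr ⟨hx', hb'⟩)
    · exact Or.inr (Or.inl ⟨hx, ha'⟩)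

/-- smaller set, null difference, countable translation set -/
theorem tiles_smaller {S T A : Set (Fin d → ℝ)} (hST : S ⊆ T) (hn : volume (T \ S) = 0)
    (hA : A.Countable) (h : TilesAE T A) : TilesAE S A := by
  obtain ⟨h1, h2⟩ := h
  refine ⟨?_, fun a ha b hb hab => ?_⟩
  · have h4 : volume (⋃ a ∈ A, {x | x - a ∈ T \ S}) = 0 := by
      rw [measure_biUnion_null_iff hA]
      intro a _
      rw [vol_shift]
      exact hn
    refine measure_mono_null ?_ (measure_union_null h1 h4)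
    intro x hx
    by_cases hx' : x ∈ ⋃ a ∈ A, {x | x - a ∈ T}
    · right
      rw [Set.mem_iUnion₂] at hx' ⊢
      obtain ⟨a, ha, hxa⟩ := hx'
      refine ⟨a, ha, hxa, fun h => hx ?_⟩
      rw [Set.mem_iUnion₂]
      exact ⟨a, ha, h⟩
    · exact Or.inl hx'
  · refine measure_mono_null ?_ (h2 a ha b hb hab)
    rintro x ⟨hx, hx'⟩
    exact ⟨hST hx, hST hx'⟩

/-! ### scaling by `8` -/

theorem null_scale (s : Set (Fin d → ℝ)) :
    volume {x : Fin d → ℝ | (8 : ℝ) • x ∈ s} = 0 ↔ volume s = 0 := by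
  have h := Measure.addHaar_preimage_smul (volume : Measure (Fin d → ℝ)) (r := 8) (by norm_num) s
  have e : {x : Fin d → ℝ | (8 : ℝ) • x ∈ s} = (fun x => (8 : ℝ) • x) ⁻¹' s := rfl
  rw [e, h, mul_eq_zero]
  constructor
  · rintro (h1 | h1)
    · exfalso
      rw [ENNReal.ofReal_eq_zero] at h1
      have : 0 < |((8 : ℝ) ^ Module.finrank ℝ (Fin d → ℝ))⁻¹| := by positivity
      linarith
    · exact h1
  · exact Or.inr

theorem tiles_scale {S S' : Set (Fin d → ℝ)} (h : ∀ x, (8 : ℝ) • x ∈ S' ↔ x ∈ S)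
    (A : Set (Fin d → ℝ)) : TilesAE S' A ↔ TilesAE S {a | (8 : ℝ) • a ∈ A} := by
  have hsub : ∀ x a : Fin d → ℝ, (8 : ℝ) • x - (8 : ℝ) • a ∈ S' ↔ x - a ∈ S := by
    intro x a
    rw [← smul_sub]
    exact h _
  have e8 : ∀ a : Fin d → ℝ, (8 : ℝ) • ((1 / 8 : ℝ) • a) = a := by
    intro a
    rw [smul_smul]
    norm_num
  have hcov : {x : Fin d → ℝ | (8 : ℝ) • x ∈ (⋃ a ∈ A, {x | x - a ∈ S'})ᶜ} =
      (⋃ a ∈ {a | (8 : ℝ) • a ∈ A}, {x | x - a ∈ S})ᶜ := by
    ext x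
    simp only [Set.mem_compl_iff, Set.mem_iUnion, Set.mem_ofPred_eq, exists_prop, not_iff_not]
    constructor
    · rintro ⟨a, ha, hx⟩
      refine ⟨(1 / 8 : ℝ) • a, ?_, ?_⟩
      · rw [e8]; exact ha
      · rw [← hsub, e8]; exact hx
    · rintro ⟨a, ha, hx⟩
      exact ⟨_, ha, (hsub _ _).2 hx⟩
  have hint : ∀ a b : Fin d → ℝ, {x : Fin d → ℝ | (8 : ℝ) • x ∈
      ({x | x - (8 : ℝ) • a ∈ S'} ∩ {x | x - (8 : ℝ) • b ∈ S'} : Set (Fin d → ℝ))} =
      {x | x - a ∈ S} ∩ {x | x - b ∈ S} := by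
    intro a b
    ext x
    simp only [Set.mem_inter_iff, Set.mem_ofPred_eq, hsub]
  constructor
  · rintro ⟨h1, h2⟩
    refine ⟨?_, fun a ha b hb hab => ?_⟩
    · rw [← hcov, null_scale]
      exact h1
    · rw [← hint, null_scale]
      refine h2 _ ha _ hb fun e => hab ?_
      exact smul_right_injective _ (by norm_num : (8 : ℝ) ≠ 0) e
  · rintro ⟨h1, h2⟩
    refine ⟨?_, fun a ha b hb hab => ?_⟩
    · rw [← hcov, null_scale] at h1
      exact h1
    · have h3 := h2 ((1 / 8 : ℝ) • a) (by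
        change (8 : ℝ) • (1 / 8 : ℝ) • a ∈ A
        rw [e8]; exact ha) ((1 / 8 : ℝ) • b) (by
        change (8 : ℝ) • (1 / 8 : ℝ) • b ∈ A
        rw [e8]; exact hb) (fun e => hab (by rw [← e8 a, e, e8]))
      rw [← hint, null_scale, e8, e8] at h3
      exact h3

theorem periodic_scale {A : Set (Fin d → ℝ)} (h : LatticePeriodic A) :
    LatticePeriodic {a | (8 : ℝ) • a ∈ A} := by
  obtain ⟨b, hb⟩ := h
  refine ⟨b.map (LinearEquiv.smulOfNeZero ℝ (Fin d → ℝ) (1 / 8 : ℝ) (by norm_num)), ?_⟩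
  intro i a
  have e : (8 : ℝ) • ((b.map (LinearEquiv.smulOfNeZero ℝ (Fin d → ℝ) (1 / 8 : ℝ) (by norm_num))) i + a)
      = b i + (8 : ℝ) • a := by
    rw [Module.Basis.map_apply, smul_add]
    congr 1
    rw [LinearEquiv.smulOfNeZero_apply, smul_smul]
    norm_num
  change (8 : ℝ) • _ ∈ A ↔ (8 : ℝ) • a ∈ A
  rw [e]
  exact hb i _

/-! ### the cells are unions of grid cubes -/

/-- `t` is in `[a/8, b/8)` -/
def In8 (t : ℝ) (a b : ℤ) : Prop := (a : ℝ) / 8 ≤ t ∧ t < (b : ℝ) / 8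

theorem In8_floor (t : ℝ) (a b : ℤ) : In8 (t / 8) a b ↔ In8 ((⌊t⌋ : ℝ) / 8) a b := by
  unfold In8
  rw [div_le_div_iff_of_pos_right (by norm_num), div_lt_div_iff_of_pos_right (by norm_num),
    div_le_div_iff_of_pos_right (by norm_num), div_lt_div_iff_of_pos_right (by norm_num),
    Int.cast_le, Int.cast_lt, Int.le_floor, Int.floor_lt]

theorem mem_C8 (x : Fin d → ℝ) : x ∈ C d ↔ ∀ i, In8 (x i) 0 8 := by
  unfold C In8
  simp only [Set.mem_ofPred_eq]
  norm_num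

theorem mem_QF8 (x : Fin d → ℝ) (j : Fin d) :
    x ∈ QF j ↔ ∀ i, In8 (x i) (if i = j then 0 else 4) (if i = j then 1 else 5) := by
  unfold QF In8 corF
  simp only [Set.mem_ofPred_eq]
  refine forall_congr' fun i => ?_
  split_ifs <;> norm_num

theorem mem_QF8' (x : Fin d → ℝ) (j : Fin d) :
    x - ev j ∈ QF j ↔ ∀ i, In8 (x i) (if i = j then 8 else 4) (if i = j then 9 else 5) := by
  rw [mem_QF8]
  unfold In8 ev
  refine forall_congr' fun i => ?_
  rw [Pi.sub_apply]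
  by_cases h : i = j
  · subst h
    rw [Pi.single_eq_same, if_pos rfl, if_pos rfl, if_pos rfl, if_pos rfl]
    constructor <;> rintro ⟨h1, h2⟩ <;> push_cast at h1 h2 ⊢ <;> constructor <;> linarith
  · rw [Pi.single_eq_of_ne h, if_neg h, if_neg h, if_neg h, if_neg h, sub_zero]

/-- membership in `RF` depends only on the cube of the grid `(1/8) ℤ^d` -/
theorem mem_RF_floor (y : Fin d → ℝ) :
    (fun i => y i / 8) ∈ RF d ↔ (fun i => (⌊y i⌋ : ℝ) / 8) ∈ RF d := by
  have hC : (fun i => y i / 8) ∈ C d ↔ (fun i => (⌊y i⌋ : ℝ) / 8) ∈ C d := by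
    rw [mem_C8, mem_C8]
    exact forall_congr' fun i => In8_floor _ _ _
  have hQ : ∀ j, (fun i => y i / 8) ∈ QF j ↔ (fun i => (⌊y i⌋ : ℝ) / 8) ∈ QF j := by
    intro j
    rw [mem_QF8, mem_QF8]
    exact forall_congr' fun i => In8_floor _ _ _
  have hQ' : ∀ j, (fun i => y i / 8) - ev j ∈ QF j ↔
      (fun i => (⌊y i⌋ : ℝ) / 8) - ev j ∈ QF j := by
    intro j
    rw [mem_QF8', mem_QF8']
    exact forall_congr' fun i => In8_floor _ _ _
  unfold RF
  simp only [Set.mem_ofPred_eq, hC, hQ, hQ']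

theorem iv_eight (q : Fin d → ℤ) (f : Fin d → ℤ) (y : Fin d → ℝ)
    (h : (fun i => ⌊y i⌋) = q) :
    ((fun i => y i / 8) - iv f ∈ RF d ↔ (fun i => ((q - (8 : ℤ) • f) i : ℝ) / 8) ∈ RF d) := by
  have e1 : (fun i => y i / 8) - iv f = fun i => (y i - (8 * f i : ℤ)) / 8 := by
    funext i
    simp only [Pi.sub_apply, iv]
    push_cast
    ring
  have e2 : (fun i => (⌊y i - ((8 * f i : ℤ) : ℝ)⌋ : ℝ) / 8) =
      fun i => ((q - (8 : ℤ) • f) i : ℝ) / 8 := by
    funext i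
    rw [Int.floor_sub_intCast, ← h]
    simp only [Pi.sub_apply, Pi.smul_apply, smul_eq_mul]
  rw [e1, mem_RF_floor, e2]

/-- the multiplication by `8` -/
def phi8 (d : ℕ) : (Fin d → ℤ) →+ (Fin d → ℤ) where
  toFun v := (8 : ℤ) • v
  map_zero' := smul_zero _
  map_add' _ _ := smul_add _ _ _

open Classical in
/-- the cubes of one cell -/
noncomputable def D8 (d : ℕ) : Finset (Fin d → ℤ) :=
  (Fintype.piFinset fun _ : Fin d => Finset.Icc (-16 : ℤ) 16).filter
    fun q => (fun i => (q i : ℝ) / 8) ∈ RF d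

theorem mem_D8 (q : Fin d → ℤ) : q ∈ D8 d ↔ (fun i => (q i : ℝ) / 8) ∈ RF d := by
  classical
  unfold D8
  rw [Finset.mem_filter, Fintype.mem_piFinset]
  refine ⟨fun h => h.2, fun h => ⟨fun i => ?_, h⟩⟩
  have hb : -1 ≤ (q i : ℝ) / 8 ∧ (q i : ℝ) / 8 ≤ 2 := by
    rcases h with ⟨h, -⟩ | ⟨j, hj⟩
    · exact ⟨by linarith [(h i).1], by linarith [(h i).2]⟩
    · have h1 := QF_subset_C j hj i
      simp only [Pi.sub_apply, ev] at h1
      by_cases hij : i = j
      · subst hij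
        rw [Pi.single_eq_same] at h1
        exact ⟨by linarith [h1.1], by linarith [h1.2]⟩
      · rw [Pi.single_eq_of_ne hij] at h1
        exact ⟨by linarith [h1.1], by linarith [h1.2]⟩
  rw [Finset.mem_Icc]
  constructor
  · have : (-16 : ℝ) ≤ (q i : ℝ) := by linarith [hb.1]
    exact_mod_cast this
  · have : (q i : ℝ) ≤ 16 := by linarith [hb.2]
    exact_mod_cast this

theorem transv8 : Transv (phi8 d) (D8 d) := by
  intro c
  have key : ∀ z : Fin d → ℤ, (fun i => (c i : ℝ) / 8) - iv z ∈ RF d ↔ c - (8 : ℤ) • z ∈ D8 d := by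
    intro z
    rw [mem_D8]
    exact iv_eight c z (fun i => (c i : ℝ)) (by funext i; simp)
  obtain ⟨z, hz, hu⟩ := RF_fund (fun i => (c i : ℝ) / 8)
  refine ⟨(z, c - (8 : ℤ) • z), ⟨(key z).1 hz, ?_⟩, ?_⟩
  · change (8 : ℤ) • z + (c - (8 : ℤ) • z) = c
    abel
  · rintro ⟨w, q⟩ ⟨hq, hw⟩
    have hw' : (8 : ℤ) • w + q = c := hw
    have e : q = c - (8 : ℤ) • w := by rw [← hw']; abel
    have h1 : w = z := hu w ((key w).2 (by rw [← e]; exact hq))
    rw [e, h1]

/-- the cubes of all cells -/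
noncomputable def P8 (F : Finset (Fin d → ℤ)) : Finset (Fin d → ℤ) :=
  (F ×ˢ D8 d).image fun p => phi8 d p.1 + p.2

theorem mem_P8 (F : Finset (Fin d → ℤ)) (c : Fin d → ℤ) :
    c ∈ P8 F ↔ ∃ f ∈ F, ∃ q ∈ D8 d, phi8 d f + q = c := by
  unfold P8
  simp only [Finset.mem_image, Finset.mem_product, Prod.exists]
  constructor
  · rintro ⟨f, q, ⟨hf, hq⟩, e⟩
    exact ⟨f, hf, q, hq, e⟩
  · rintro ⟨f, hf, q, hq, e⟩
    exact ⟨f, q, ⟨hf, hq⟩, e⟩

theorem mem_Hlf_P8 (F : Finset (Fin d → ℤ)) (x : Fin d → ℝ) :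
    (8 : ℝ) • x ∈ Hlf (P8 F) ↔ x ∈ Cells F := by
  have ex : (fun i => ((8 : ℝ) • x) i / 8) = x := by
    funext i
    simp only [Pi.smul_apply, smul_eq_mul]
    ring
  change (fun i => ⌊((8 : ℝ) • x) i⌋) ∈ P8 F ↔ ∃ z ∈ F, x - iv z ∈ RF d
  rw [mem_P8]
  constructor
  · rintro ⟨f, hf, q, hq, e⟩
    refine ⟨f, hf, ?_⟩
    have h1 := iv_eight _ f ((8 : ℝ) • x) e.symm
    rw [ex] at h1
    rw [h1]
    have e2 : phi8 d f + q - (8 : ℤ) • f = q := by
      change (8 : ℤ) • f + q - (8 : ℤ) • f = q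
      abel
    rw [e2]
    exact (mem_D8 q).1 hq
  · rintro ⟨f, hf, hx⟩
    refine ⟨f, hf, (fun i => ⌊((8 : ℝ) • x) i⌋) - (8 : ℤ) • f, ?_, ?_⟩
    · rw [mem_D8]
      have h1 := iv_eight _ f ((8 : ℝ) • x) rfl
      rw [ex] at h1
      exact h1.1 hx
    · change (8 : ℤ) • f + _ = _
      abel

/-! ### the interior is connected -/

theorem scaled_Op_subset (hd : 2 ≤ d) (F : Finset (Fin d → ℤ)) :
    (fun x => (8 : ℝ) • x) '' (Op F) ⊆ interior (Cub (P8 F)) := by
  have hopen : IsOpen ((fun x : Fin d → ℝ => (8 : ℝ) • x) '' (Op F)) :=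
    (isOpenMap_smul₀ (by norm_num : (8 : ℝ) ≠ 0)) _ (Op_open F)
  refine interior_maximal ?_ hopen
  rintro _ ⟨x, hx, rfl⟩
  exact Hlf_subset _ ((mem_Hlf_P8 F x).2 (Op_subset hd F hx))

theorem Cub_subset_closure (F : Finset (Fin d → ℤ)) :
    Cub (P8 F) ⊆ closure ((fun x => (8 : ℝ) • x) '' (Op F)) := by
  intro y hy
  rw [mem_Cub] at hy
  obtain ⟨p, hp, hy⟩ := hy
  have h1 : (Set.univ.pi fun i => Set.Ioo (p i : ℝ) ((p i : ℝ) + 1)) ⊆
      (fun x : Fin d → ℝ => (8 : ℝ) • x) '' (Op F) := by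
    intro w hw
    have hfl : ∀ i, ⌊w i⌋ = p i := by
      intro i
      have := hw i (Set.mem_univ i)
      rw [Int.floor_eq_iff]
      exact ⟨this.1.le, this.2⟩
    have e8 : (8 : ℝ) • ((1 / 8 : ℝ) • w) = w := by
      rw [smul_smul]
      norm_num
    refine ⟨(1 / 8 : ℝ) • w, ?_, e8⟩
    refine mem_Op_of_gen F ?_ ?_
    · intro i n hn
      have hwi := hw i (Set.mem_univ i)
      have e : w i = n := by
        rw [← hn]
        simp only [Pi.smul_apply, smul_eq_mul]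
        ring
      have h2 := hfl i
      rw [e, Int.floor_intCast] at h2
      have h3 := hwi.1
      rw [e, h2] at h3
      exact lt_irrefl _ h3
    · rw [← mem_Hlf_P8, e8]
      change (fun i => ⌊w i⌋) ∈ P8 F
      rw [funext hfl]
      exact hp
  refine closure_mono h1 ?_
  rw [closure_pi_set]
  intro i _
  change y i ∈ closure (Set.Ioo (p i : ℝ) ((p i : ℝ) + 1))
  rw [closure_Ioo (by linarith)]
  exact hy i

theorem connected_interior (hd : 2 ≤ d) (F : Finset (Fin d → ℤ)) (h : IsConnected (Op F)) :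
    IsConnected (interior (Cub (P8 F))) := by
  refine IsConnected.subset_closure (h.image _ (by fun_prop)) (scaled_Op_subset hd F) ?_
  exact interior_subset.trans (Cub_subset_closure F)

/-! ### tilings of `ℝ^d` -/

theorem tiles_Cub_iff (F : Finset (Fin d → ℤ)) {A : Set (Fin d → ℝ)} (hA : A.Countable) :
    TilesAE (Cub (P8 F)) A ↔ TilesAE (Cells F) {a | (8 : ℝ) • a ∈ A} := by
  rw [← tiles_scale (mem_Hlf_P8 F) A]
  exact ⟨tiles_smaller (Hlf_subset _) (null_cub _) hA, tiles_larger (Hlf_subset _) (null_cub _)⟩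

/-- A connected finite tile `F` of `ℤ^d` without periodic tilings gives a polycube without periodic
tilings, in `ℤ^d` and in `ℝ^d`. -/
theorem polycube (hd : 2 ≤ d) {F : Finset (Fin d → ℤ)}
    (hF : ∀ x ∈ F, ∀ y ∈ F, Rch (F : Set (Fin d → ℤ)) x y) (hne : F.Nonempty)
    (h1 : ∃ A : Set (Fin d → ℤ), IsTiling A F)
    (h2 : ∀ A : Set (Fin d → ℤ), IsTiling A F → ¬ IsPeriodic A) :
    ∃ P : Finset (Fin d → ℤ), IsConnected (interior (Cub P)) ∧
      ((∃ A : Set (Fin d → ℤ), IsTiling A P) ∧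
        ∀ A : Set (Fin d → ℤ), IsTiling A P → ¬ IsPeriodic A) ∧
      (∃ A : Set (Fin d → ℝ), TilesAE (Cub P) A) ∧
      ∀ A : Set (Fin d → ℝ), TilesAE (Cub P) A → ¬ LatticePeriodic A := by
  obtain ⟨x0, hx0⟩ := hne
  have hcells : Cells F = {x | ∃ p : F, x - iv (p : Fin d → ℤ) ∈ RF d} := by
    ext x
    simp only [Cells, Set.mem_ofPred_eq, Subtype.exists, exists_prop]
  obtain ⟨⟨A0, hA0, hA0'⟩, hno⟩ := euclid_explicit hd (fun p : F => (p : Fin d → ℤ))
    (aperSys_of_isTiling h1 h2)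
  rw [← hcells] at hA0' hno
  have hconn : IsConnected (interior (Cub (P8 F))) :=
    connected_interior hd F (Op_connected F hx0 fun x hx => hF x0 hx0 x hx)
  refine ⟨P8 F, hconn, transfer transv8 (mem_P8 F) h1 h2, ?_, ?_⟩
  · refine ⟨(fun a => (8 : ℝ) • a) '' A0, (tiles_Cub_iff F (hA0.image _)).2 ?_⟩
    have e : {a : Fin d → ℝ | (8 : ℝ) • a ∈ (fun a => (8 : ℝ) • a) '' A0} = A0 := by
      ext a
      constructor
      · rintro ⟨b, hb, e⟩
        have := smul_right_injective (Fin d → ℝ) (by norm_num : (8 : ℝ) ≠ 0) e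
        rwa [← this]
      · intro ha
        exact ⟨a, ha, rfl⟩
    rw [e]
    exact hA0'
  · intro A hA hper
    have hpos : 0 < volume (Cub (P8 F)) :=
      (isOpen_interior.measure_pos volume hconn.nonempty).trans_le (measure_mono interior_subset)
    have hc := countable_of_tiles (Cub_closed _).measurableSet hpos hA
    exact hno _ ((tiles_Cub_iff F hc).1 hA) (periodic_scale hper)

theorem polycube_all (d : ℕ) (hd : 3 ≤ d) :
    ∃ P : Finset (Fin d → ℤ), IsConnected (interior (Cub P)) ∧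
      ((∃ A : Set (Fin d → ℤ), IsTiling A P) ∧
        ∀ A : Set (Fin d → ℤ), IsTiling A P → ¬ IsPeriodic A) ∧
      (∃ A : Set (Fin d → ℝ), TilesAE (Cub P) A) ∧
      ∀ A : Set (Fin d → ℝ), TilesAE (Cub P) A → ¬ LatticePeriodic A := by
  obtain ⟨F, hne, hc, h1, h2⟩ := discrete_connected d hd
  exact polycube (by omega)
    (fun x hx y hy => rch_of_connected hc (Finset.mem_coe.2 hx) (Finset.mem_coe.2 hy)) hne h1 h2

end Vale.Agent.P043.H703
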