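import Vale.Agent.P043.H467.Fin

/-!
# P043: a tiling of `ℤ^d` with `d - 1` independent periods gives a periodic tiling

The quotient by the group of periods is `ℤ × T` with `T` finite (or finite); a tiling of `ℤ × T` is
made periodic by the pigeonhole principle.
-/

set_option autoImplicit false

namespace Vale.Agent.P043.H703

open Vale.Agent.P043

/-- the group of periods -/
def stab {G : Type} [AddCommGroup G] (A : Set G) : AddSubgroup G where
  carrier := {h | ∀ a, a + h ∈ A ↔ a ∈ A}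
  zero_mem' := fun a => by rw [add_zero]
  add_mem' := fun {h h'} hh hh' a => by rw [← add_assoc, hh', hh]
  neg_mem' := fun {h} hh a => by
    have := hh (a + -h)
    rw [neg_add_cancel_right] at this
    exact this.symm

theorem mem_stab {G : Type} [AddCommGroup G] {A : Set G} {h : G} :
    h ∈ stab A ↔ ∀ a, a + h ∈ A ↔ a ∈ A := Iff.rfl

theorem mem_stab_iff {G : Type} [AddCommGroup G] {A : Set G} {h : G} :
    h ∈ stab A ↔ (fun a => a + h) '' A = A := by
  rw [mem_stab]
  constructor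
  · intro hh
    ext x
    constructor
    · rintro ⟨a, ha, rfl⟩
      exact (hh a).2 ha
    · intro hx
      refine ⟨x - h, ?_, sub_add_cancel _ _⟩
      have := hh (x - h)
      rw [sub_add_cancel] at this
      exact this.1 hx
  · intro hh a
    constructor
    · intro ha
      rw [← hh] at ha
      obtain ⟨b, hb, e⟩ := ha
      have : b = a := add_right_cancel e
      rwa [← this]
    · intro ha
      rw [← hh]
      exact ⟨a, ha, rfl⟩

section pigeon

variable {T P : Type} [AddCommGroup T] [Finite T] [Finite P]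

theorem pigeon (τ : P → ℤ × T) (A : Set (ℤ × T)) (h : Solves A τ) :
    ∃ (M : ℕ) (A' : Set (ℤ × T)), 0 < M ∧ Solves A' τ ∧
      ∀ x : ℤ × T, x + ((M : ℤ), 0) ∈ A' ↔ x ∈ A' := by
  classical
  have : Fintype P := Fintype.ofFinite P
  -- a bound for the tile
  obtain ⟨r, hr⟩ : ∃ r : ℕ, ∀ p, -(r : ℤ) ≤ (τ p).1 ∧ (τ p).1 ≤ r := by
    refine ⟨∑ p, ((τ p).1).natAbs, fun p => ?_⟩
    have h1 : ((τ p).1).natAbs ≤ ∑ p, ((τ p).1).natAbs :=
      Finset.single_le_sum (f := fun p => ((τ p).1).natAbs) (fun _ _ => Nat.zero_le _)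
        (Finset.mem_univ p)
    omega
  -- the states
  let σ : ℕ → (Fin (2 * r + 1) → T → Prop) := fun n i t => (((n : ℤ) + (i : ℕ), t) : ℤ × T) ∈ A
  obtain ⟨n, m, hnm, hσ⟩ : ∃ n m : ℕ, n < m ∧ σ n = σ m := by
    obtain ⟨n, m, hne, e⟩ := Finite.exists_ne_map_eq_of_infinite σ
    rcases lt_or_gt_of_ne hne with h | h
    · exact ⟨n, m, h, e⟩
    · exact ⟨m, n, h, e.symm⟩
  obtain ⟨M, rfl⟩ : ∃ M, m = n + M := ⟨m - n, by omega⟩
  have hM : 0 < M := by omega
  -- the window
  have hw : ∀ k : ℕ, k ≤ M + 2 * r → ∀ t : T,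
      ((((n : ℤ) + ((k % M : ℕ) : ℤ), t) : ℤ × T) ∈ A ↔ (((n : ℤ) + (k : ℤ), t) : ℤ × T) ∈ A) := by
    intro k
    induction k using Nat.strong_induction_on with
    | _ k ih =>
      intro hk t
      rcases lt_or_ge k M with hlt | hge
      · rw [Nat.mod_eq_of_lt hlt]
      · obtain ⟨i, rfl⟩ : ∃ i, k = M + i := ⟨k - M, by omega⟩
        have h1 := ih i (by omega) (by omega) t
        rw [Nat.add_mod_left, h1]
        have h2 := congrFun (congrFun hσ ⟨i, by omega⟩) t
        have h3 : ((((n : ℤ) + (i : ℤ), t) : ℤ × T) ∈ A) =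
            ((((n + M : ℕ) : ℤ) + (i : ℤ), t) ∈ A) := h2
        rw [h3]
        push_cast
        rw [add_assoc]
  refine ⟨M, {x | (((n : ℤ) + (x.1 - n) % M, x.2) : ℤ × T) ∈ A}, hM, ?_, ?_⟩
  · -- the new set
    have hper : ∀ x x' : ℤ × T, x.2 = x'.2 → (M : ℤ) ∣ x.1 - x'.1 →
        (x ∈ {x : ℤ × T | (((n : ℤ) + (x.1 - n) % M, x.2) : ℤ × T) ∈ A} ↔
          x' ∈ {x : ℤ × T | (((n : ℤ) + (x.1 - n) % M, x.2) : ℤ × T) ∈ A}) := by
      intro x x' h2 h1
      have e : (x.1 - n) % (M : ℤ) = (x'.1 - n) % (M : ℤ) := by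
        rw [Int.emod_eq_emod_iff_emod_sub_eq_zero]
        apply Int.emod_eq_zero_of_dvd
        rwa [sub_sub_sub_cancel_right]
      simp only [Set.mem_ofPred_eq, h2, e]
    have hin : ∀ x : ℤ × T, (n : ℤ) ≤ x.1 → x.1 ≤ n + M + 2 * r →
        (x ∈ {x : ℤ × T | (((n : ℤ) + (x.1 - n) % M, x.2) : ℤ × T) ∈ A} ↔ x ∈ A) := by
      intro x h1 h2
      obtain ⟨k, hk⟩ : ∃ k : ℕ, x.1 = n + k := ⟨(x.1 - n).toNat, by omega⟩
      have h3 := hw k (by omega) x.2
      have h4 : (x.1 - n) % (M : ℤ) = ((k % M : ℕ) : ℤ) := by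
        rw [hk, add_sub_cancel_left, Int.natCast_mod]
      have h5 : (((n : ℤ) + (k : ℤ), x.2) : ℤ × T) = x := by rw [← hk]
      rw [h5] at h3
      simp only [Set.mem_ofPred_eq, h4]
      exact h3
    intro g
    set g' : ℤ × T := ((n : ℤ) + r + (g.1 - n - r) % M, g.2) with hg'
    have hM' : (0 : ℤ) < M := by exact_mod_cast hM
    have b1 := Int.emod_nonneg (g.1 - n - r) hM'.ne'
    have b2 := Int.emod_lt_of_pos (g.1 - n - r) hM'
    have hdvd : (M : ℤ) ∣ g.1 - g'.1 := by
      have h1 := Int.mul_ediv_add_emod (g.1 - n - r) M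
      refine ⟨(g.1 - n - r) / M, ?_⟩
      simp only [hg']
      linarith
    have key : ∀ p, g - τ p ∈ {x : ℤ × T | (((n : ℤ) + (x.1 - n) % M, x.2) : ℤ × T) ∈ A} ↔
        g' - τ p ∈ A := by
      intro p
      have hp := hr p
      rw [hper (g - τ p) (g' - τ p) rfl (by
        rw [Prod.fst_sub, Prod.fst_sub, sub_sub_sub_cancel_right]
        exact hdvd)]
      refine hin _ ?_ ?_
      · rw [Prod.fst_sub]
        simp only [hg']
        omega
      · rw [Prod.fst_sub]
        simp only [hg']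
        omega
    simp only [key]
    exact h g'
  · intro x
    simp only [Set.mem_ofPred_eq, Prod.fst_add, Prod.snd_add, add_zero]
    have e : (x.1 + (M : ℤ) - n) % (M : ℤ) = (x.1 - n) % (M : ℤ) := by
      rw [show x.1 + (M : ℤ) - n = x.1 - n + M by ring, Int.add_emod_right]
    rw [e]

end pigeon

/-- A tiling which is the preimage of a subset of `ℤ × T` gives a periodic tiling. -/
theorem periodic_of_hom {G T : Type} [AddCommGroup G] [AddCommGroup T] [Finite T]
    (π : G →+ ℤ × T) (hπ : Function.Surjective π) {F : Finset G} {A : Set G}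
    (hA : ∀ g : G, ∃! f : F, g - f ∈ A) (hker : π.ker ≤ stab A) :
    ∃ A' : Set G, (∀ g : G, ∃! f : F, g - f ∈ A') ∧ (stab A').FiniteIndex := by
  have himg : ∀ g : G, π g ∈ π '' A ↔ g ∈ A := by
    intro g
    constructor
    · rintro ⟨a, ha, e⟩
      have h1 : g - a ∈ π.ker := by rw [AddMonoidHom.mem_ker, map_sub, e, sub_self]
      have h2 := hker h1 a
      rw [add_sub_cancel] at h2
      exact h2.2 ha
    · intro hg
      exact ⟨g, hg, rfl⟩
  obtain ⟨M, A', hM, hA', hper⟩ := pigeon (fun f : F => π f) (π '' A) (by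
    intro g
    obtain ⟨g0, rfl⟩ := hπ g
    obtain ⟨f, hf, hu⟩ := hA g0
    refine ⟨f, ?_, fun f' hf' => hu f' ?_⟩
    · change π g0 - π f ∈ π '' A
      rw [← map_sub, himg]
      exact hf
    · change π g0 - π f' ∈ π '' A at hf'
      rw [← map_sub, himg] at hf'
      exact hf')
  refine ⟨π ⁻¹' A', ?_, ?_⟩
  · intro g
    obtain ⟨f, hf, hu⟩ := hA' (π g)
    refine ⟨f, ?_, fun f' hf' => hu f' ?_⟩
    · change π (g - f) ∈ A'
      rw [map_sub]
      exact hf
    · change π (g - f') ∈ A' at hf'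
      change π g - π f' ∈ A'
      rw [← map_sub]
      exact hf'
  · have : NeZero M := ⟨hM.ne'⟩
    let ρ : ℤ × T →+ ZMod M × T := (Int.castAddHom (ZMod M)).prodMap (AddMonoidHom.id T)
    have h1 : (ρ.comp π).ker.FiniteIndex := AddSubgroup.finiteIndex_ker _
    refine AddSubgroup.finiteIndex_of_le (H := (ρ.comp π).ker) ?_
    intro h hh a
    rw [AddMonoidHom.mem_ker] at hh
    have h2 : ρ (π h) = 0 := hh
    have h3 : (((π h).1 : ℤ) : ZMod M) = 0 := congrArg Prod.fst h2
    have h4 : (π h).2 = 0 := congrArg Prod.snd h2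
    obtain ⟨k, hk⟩ := (ZMod.intCast_zmod_eq_zero_iff_dvd _ M).1 h3
    have h5 : π h = k • (((M : ℤ), 0) : ℤ × T) := by
      refine Prod.ext ?_ ?_
      · rw [hk, Prod.smul_fst, smul_eq_mul, mul_comm]
      · rw [h4, Prod.smul_snd, smul_zero]
    have h6 : (((M : ℤ), 0) : ℤ × T) ∈ stab A' := hper
    have h7 := (stab A').zsmul_mem h6 k
    change π (a + h) ∈ A' ↔ π a ∈ A'
    rw [map_add, h5]
    exact h7 (π a)

/-- few periods are missing: then there is a periodic tiling -/
theorem periodic_of_rank {d : ℕ} {F : Finset (Fin d → ℤ)} {A : Set (Fin d → ℤ)}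
    (hA : IsTiling A F) (b : Fin (d - 1) → (Fin d → ℤ)) (hb : LinearIndependent ℤ b)
    (hper : ∀ i, b i ∈ stab A) :
    ∃ A' : Set (Fin d → ℤ), IsTiling A' F ∧ IsPeriodic A' := by
  have hA1 : ∀ g : Fin d → ℤ, ∃! f : F, g - f ∈ A := by
    intro g
    obtain ⟨⟨a, f⟩, ⟨ha, hf, haf⟩, hu⟩ := hA g
    simp only at ha hf haf
    refine ⟨⟨f, hf⟩, ?_, ?_⟩
    · change g - f ∈ A
      rw [← haf, add_sub_cancel_right]
      exact ha
    · rintro ⟨f', hf'⟩ hp'
      have h3 := hu (g - f', f') ⟨hp', hf', sub_add_cancel _ _⟩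
      rw [Prod.mk.injEq] at h3
      exact Subtype.ext h3.2
  -- it suffices to find a set with finite index group of periods
  suffices h : ∃ A' : Set (Fin d → ℤ), (∀ g : Fin d → ℤ, ∃! f : F, g - f ∈ A') ∧
      (stab A').FiniteIndex by
    obtain ⟨A', h1, h2⟩ := h
    refine ⟨A', ?_, stab A', h2, fun h hh => mem_stab_iff.1 hh⟩
    intro g
    obtain ⟨⟨f, hf⟩, hp, hu⟩ := h1 g
    change g - f ∈ A' at hp
    refine ⟨(g - f, f), ⟨hp, hf, sub_add_cancel _ _⟩, ?_⟩
    rintro ⟨a, f'⟩ ⟨ha, hf', haf⟩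
    simp only at ha hf' haf
    have h3 := hu ⟨f', hf'⟩ (by
      change g - f' ∈ A'
      rw [← haf, add_sub_cancel_right]
      exact ha)
    have h4 : f' = f := congrArg Subtype.val h3
    subst h4
    rw [← haf, add_sub_cancel_right]
  -- the quotient by the group of periods
  let S : Submodule ℤ (Fin d → ℤ) := AddSubgroup.toIntSubmodule (stab A)
  have hS : d - 1 ≤ Module.finrank ℤ S := by
    have h1 : LinearIndependent ℤ (fun i => (⟨b i, hper i⟩ : S)) := by
      refine LinearIndependent.of_comp S.subtype ?_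
      exact hb
    have := h1.fintype_card_le_finrank
    rwa [Fintype.card_fin] at this
  have hQ := S.finrank_quotient_add_finrank
  rw [Module.finrank_fin_fun] at hQ
  have hQ1 : Module.finrank ℤ ((Fin d → ℤ) ⧸ S) ≤ 1 := by omega
  have hfg : AddGroup.FG ((Fin d → ℤ) ⧸ S) := Module.Finite.iff_addGroup_fg.1 inferInstance
  obtain ⟨n, ι, _, p, hp, e, ⟨φ⟩⟩ := AddCommGroup.equiv_free_prod_directSum_zmod ((Fin d → ℤ) ⧸ S)
  have hne : ∀ i, NeZero (p i ^ e i) := fun i => ⟨pow_ne_zero _ (hp i).ne_zero⟩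
  have hT : Finite (DirectSum ι fun i => ZMod (p i ^ e i)) := by
    classical
    exact Finite.of_equiv _ (DirectSum.addEquivProd fun i => ZMod (p i ^ e i)).symm.toEquiv
  have hn : n ≤ 1 := by
    have h1 : LinearIndependent ℤ (fun j : Fin n => φ.symm (Finsupp.single j 1, 0)) := by
      refine LinearIndependent.of_comp
        ((LinearMap.fst ℤ (Fin n →₀ ℤ) (DirectSum ι fun i => ZMod (p i ^ e i))).comp
          φ.toIntLinearEquiv.toLinearMap) ?_
      have h2 : (((LinearMap.fst ℤ (Fin n →₀ ℤ) (DirectSum ι fun i => ZMod (p i ^ e i))).comp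
          φ.toIntLinearEquiv.toLinearMap) ∘ fun j : Fin n => φ.symm (Finsupp.single j 1, 0)) =
          fun j => Finsupp.single j (1 : ℤ) := by
        funext j
        change (φ (φ.symm (Finsupp.single j 1, 0))).1 = _
        rw [AddEquiv.apply_symm_apply]
      rw [h2]
      have h3 := (Finsupp.basisSingleOne (R := ℤ) (ι := Fin n)).linearIndependent
      rwa [Finsupp.coe_basisSingleOne] at h3
    have h4 := h1.fintype_card_le_finrank
    rw [Fintype.card_fin] at h4
    omega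
  rcases Nat.lt_or_ge n 1 with h0 | h1
  · -- the quotient is finite
    obtain rfl : n = 0 := by omega
    have hQf : Finite ((Fin d → ℤ) ⧸ S) := Finite.of_equiv _ φ.symm.toEquiv
    refine ⟨A, hA1, ?_⟩
    have hQf' : Finite ((Fin d → ℤ) ⧸ stab A) := hQf
    exact AddSubgroup.finiteIndex_of_finite_quotient
  · obtain rfl : n = 1 := by omega
    let e1 : (Fin 1 →₀ ℤ) ≃+ ℤ := (Finsupp.uniqueLinearEquiv ℤ ℤ (0 : Fin 1)).toAddEquiv
    let π : (Fin d → ℤ) →+ ℤ × (DirectSum ι fun i => ZMod (p i ^ e i)) :=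
      ((e1.prodCongr (AddEquiv.refl _)).toAddMonoidHom.comp φ.toAddMonoidHom).comp
        S.mkQ.toAddMonoidHom
    refine periodic_of_hom π ?_ hA1 ?_
    · intro y
      obtain ⟨y1, h1⟩ := (e1.prodCongr (AddEquiv.refl _)).surjective y
      obtain ⟨y2, h2⟩ := φ.surjective y1
      obtain ⟨y3, h3⟩ := Submodule.mkQ_surjective S y2
      refine ⟨y3, ?_⟩
      change (e1.prodCongr (AddEquiv.refl _)) (φ (S.mkQ y3)) = y
      rw [h3, h2, h1]
    · intro h hh
      rw [AddMonoidHom.mem_ker] at hh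
      have h2 : (e1.prodCongr (AddEquiv.refl _)) (φ (S.mkQ h)) = 0 := hh
      rw [EmbeddingLike.map_eq_zero_iff, EmbeddingLike.map_eq_zero_iff] at h2
      exact (Submodule.Quotient.mk_eq_zero S).1 h2

/-- A tile without periodic tilings has no tiling with `d - 1` independent periods. -/
theorem no_periods {d : ℕ} {F : Finset (Fin d → ℤ)}
    (h : ∀ A : Set (Fin d → ℤ), IsTiling A F → ¬ IsPeriodic A) {A : Set (Fin d → ℤ)}
    (hA : IsTiling A F) (b : Fin (d - 1) → (Fin d → ℤ)) (hb : LinearIndependent ℤ b) :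
    ∃ i, (fun a => a + b i) '' A ≠ A := by
  by_contra hcon
  push Not at hcon
  obtain ⟨A', h1, h2⟩ := periodic_of_rank hA b hb fun i => mem_stab_iff.2 (hcon i)
  exact h A' h1 h2

end Vale.Agent.P043.H703
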