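import Vale.Agent.P043.H467.Fin

/-!
# P043: every tiling of `ℝ^d` by `RF` is a coset of `ℤ^d`

The dent `QF j` of a copy of `RF` can only be filled by the bump of the copy translated by `-e_j`.
-/

set_option autoImplicit false

namespace Vale.Agent.P043.H703

open MeasureTheory Vale.Agent.P043 Vale.Agent.P043.Eu Vale.Agent.P043.H467
  Vale.Agent.P043.H467.Eu

variable {d : ℕ}

/-- close points of a separated set are equal -/
theorem Sep.eq {A : Set (Fin d → ℝ)} (hsep : Sep A) {a b : Fin d → ℝ} (ha : a ∈ A) (hb : b ∈ A)
    (h : ∀ i, |a i - b i| < 1) : a = b := by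
  by_contra hne
  obtain ⟨i, hi⟩ := hsep a ha b hb hne
  linarith [h i]

/-- a point of the dent `j` of `a` is covered by the bump `j` of some `b` -/
theorem dent_cover {A : Set (Fin d → ℝ)} (hsep : Sep A) {a b x : Fin d → ℝ} (ha : a ∈ A)
    (hb : b ∈ A) {j : Fin d} (hx : x - a ∈ QF j) (hxb : x - b ∈ RF d) : x - b - ev j ∈ QF j := by
  have hxC := QF_subset_C j hx
  rcases hxb with ⟨hC, hQ⟩ | ⟨k, hk⟩
  · exfalso
    have h1 : a = b := by
      refine Sep.eq hsep ha hb fun i => ?_
      have h2 := hxC i
      have h3 := hC i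
      simp only [Pi.sub_apply] at h2 h3
      rw [abs_lt]
      constructor <;> linarith
    subst h1
    exact hQ j hx
  · have hkC := QF_subset_C k hk
    have hbk := hkC k
    have hak := hxC k
    simp only [Pi.sub_apply, ev, Pi.single_eq_same] at hbk hak
    have hne : a ≠ b := by
      rintro rfl
      linarith
    obtain ⟨i, hi⟩ := hsep a ha b hb hne
    have hik : i = k := by
      by_contra hik
      have h2 := hxC i
      have h3 := hkC i
      simp only [Pi.sub_apply, ev, Pi.single_eq_of_ne hik, sub_zero] at h2 h3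
      have : |a i - b i| < 1 := by
        rw [abs_lt]
        constructor <;> linarith
      linarith
    subst hik
    have hc : b i + 1 ≤ a i := by
      rcases le_abs.1 hi with h | h
      · linarith
      · exfalso
        linarith
    by_cases hij : i = j
    · rw [← hij]
      exact hk
    · exfalso
      have h4 := hx i
      rw [corF_ne hij] at h4
      have h5 := hk i
      rw [corF_self] at h5
      simp only [Pi.sub_apply, ev, Pi.single_eq_same] at h4 h5
      linarith [h4.1, h5.2]

theorem closed_down {A : Set (Fin d → ℝ)} (hsep : Sep A) (htile : TilesAE (RF d) A)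
    {a : Fin d → ℝ} (ha : a ∈ A) (j : Fin d) : a - ev j ∈ A := by
  set U : Set (Fin d → ℝ) :=
    Set.univ.pi fun i => Set.Ioo (a i + corF j i) (a i + corF j i + 1 / 8) with hU
  have hUo : IsOpen U := isOpen_set_pi Set.finite_univ fun i _ => isOpen_Ioo
  have hUQ : ∀ x ∈ U, x - a ∈ QF j := by
    intro x hx i
    have := hx i (Set.mem_univ i)
    simp only [Set.mem_Ioo] at this
    rw [Pi.sub_apply]
    constructor <;> linarith [this.1, this.2]
  set S : Set (Fin d → ℝ) := ⋃ b ∈ A, {x | x - b ∈ RF d} with hS
  have hSd : Dense S := by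
    refine Measure.dense_of_ae (μ := (volume : Measure (Fin d → ℝ))) (p := fun x => x ∈ S) ?_
    rw [ae_iff]
    exact htile.1
  have hmem : ∀ x ∈ U ∩ S, ∃ b ∈ A, x - b - ev j ∈ QF j := by
    rintro x ⟨hx, hxS⟩
    rw [hS, Set.mem_iUnion₂] at hxS
    obtain ⟨b, hb, hxb⟩ := hxS
    exact ⟨b, hb, dent_cover hsep ha hb (hUQ x hx) hxb⟩
  have hmid : (fun i => a i + corF j i + 1 / 16) ∈ U := by
    intro i _
    simp only [Set.mem_Ioo]
    constructor <;> linarith
  obtain ⟨x0, hx0⟩ : (U ∩ S).Nonempty := by
    rw [Set.inter_comm]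
    exact hSd.inter_open_nonempty U hUo ⟨_, hmid⟩ |>.mono (by rw [Set.inter_comm])
  obtain ⟨b0, hb0, hxb0⟩ := hmem x0 hx0
  -- all points are covered by the same bump
  have hsame : ∀ x ∈ U ∩ S, x - b0 - ev j ∈ QF j := by
    intro x hx
    obtain ⟨b, hb, hxb⟩ := hmem x hx
    have e : b = b0 := by
      refine Sep.eq hsep hb hb0 fun i => ?_
      have h1 := hUQ x hx.1 i
      have h2 := hUQ x0 hx0.1 i
      have h3 := hxb i
      have h4 := hxb0 i
      simp only [Pi.sub_apply] at h1 h2 h3 h4
      rw [abs_lt]
      constructor <;> linarith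
    rw [← e]
    exact hxb
  have hcl : ∀ x ∈ U, ∀ i, corF j i ≤ x i - b0 i - ev j i ∧ x i - b0 i - ev j i ≤ corF j i + 1 / 8 := by
    have h1 : U ⊆ closure (U ∩ S) := hSd.open_subset_closure_inter hUo
    have hK : IsClosed {x : Fin d → ℝ | ∀ i, corF j i ≤ x i - b0 i - ev j i ∧
        x i - b0 i - ev j i ≤ corF j i + 1 / 8} := by
      simp only [Set.ofPred_forall, Set.ofPred_and]
      refine isClosed_iInter fun i => IsClosed.inter ?_ ?_
      · exact isClosed_le continuous_const (by fun_prop)
      · exact isClosed_le (by fun_prop) continuous_const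
    have h2 : closure (U ∩ S) ⊆ {x : Fin d → ℝ | ∀ i, corF j i ≤ x i - b0 i - ev j i ∧
        x i - b0 i - ev j i ≤ corF j i + 1 / 8} := by
      refine hK.closure_subset_iff.2 ?_
      intro x hx i
      have := hsame x hx i
      exact ⟨this.1, this.2.le⟩
    exact fun x hx => h2 (h1 hx)
  have e : b0 = a - ev j := by
    funext i
    rw [Pi.sub_apply]
    by_contra hne
    set c : ℝ := b0 i + ev j i - a i with hc
    have hc0 : c ≠ 0 := by
      intro h
      apply hne
      linarith
    -- a point of `U` with prescribed `i`-th coordinate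
    have hpt : ∀ t : ℝ, 0 < t → t < 1 / 8 →
        corF j i ≤ a i + corF j i + t - b0 i - ev j i ∧
          a i + corF j i + t - b0 i - ev j i ≤ corF j i + 1 / 8 := by
      intro t ht1 ht2
      have h1 := hcl (fun k => if k = i then a i + corF j i + t else a k + corF j k + 1 / 16) (by
        intro k _
        simp only [Set.mem_Ioo]
        by_cases hk : k = i
        · subst hk
          rw [if_pos rfl]
          constructor <;> linarith
        · rw [if_neg hk]
          constructor <;> linarith) i
      simp only [if_pos] at h1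
      exact h1
    rcases lt_or_gt_of_ne hc0 with h | h
    · -- `c < 0`
      have h2 := hpt (1 / 8 - min (-c) (1 / 8) / 2) (by
        have := min_le_right (-c) (1 / 8); linarith) (by
        have : 0 < min (-c) (1 / 8) := lt_min (by linarith) (by norm_num)
        linarith)
      have h3 := min_le_left (-c) (1 / 8)
      have h4 : 0 < min (-c) (1 / 8) := lt_min (by linarith) (by norm_num)
      linarith [h2.2]
    · have h2 := hpt (min c (1 / 8) / 2) (by
        have : 0 < min c (1 / 8) := lt_min h (by norm_num)
        linarith) (by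
        have := min_le_right c (1 / 8); linarith)
      have h3 := min_le_left c (1 / 8)
      have h4 : 0 < min c (1 / 8) := lt_min h (by norm_num)
      linarith [h2.1]
  rw [← e]
  exact hb0

/-- a set closed under `-e_j` is closed under subtraction of `ℕ^d` -/
theorem down_nat {A : Set (Fin d → ℝ)} (hdown : ∀ a ∈ A, ∀ j, a - ev j ∈ A) :
    ∀ (s : Finset (Fin d)) (n : Fin d → ℕ) (a : Fin d → ℝ), a ∈ A →
      (fun i => a i - if i ∈ s then (n i : ℝ) else 0) ∈ A := by
  classical
  intro s
  induction s using Finset.induction_on with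
  | empty =>
    intro n a ha
    simpa using ha
  | @insert k s hk ih =>
    intro n a ha
    have h1 := ih n a ha
    -- subtract `n k` times `e_k`
    have h2 : ∀ m : ℕ, (fun i => a i - (if i ∈ s then (n i : ℝ) else 0) - if i = k then (m : ℝ) else 0) ∈ A := by
      intro m
      induction m with
      | zero => simpa using h1
      | succ m ihm =>
        have h3 := hdown _ ihm k
        convert h3 using 1
        funext i
        simp only [Pi.sub_apply, ev]
        by_cases hik : i = k
        · subst hik
          rw [if_pos rfl, if_pos rfl, Pi.single_eq_same]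
          push_cast
          ring
        · rw [if_neg hik, if_neg hik, Pi.single_eq_of_ne hik, sub_zero, sub_zero]
    convert h2 (n k) using 1
    funext i
    by_cases hik : i = k
    · subst hik
      rw [if_pos (Finset.mem_insert_self _ _), if_neg hk, if_pos rfl, sub_zero]
    · simp only [Finset.mem_insert, hik, false_or, if_false, sub_zero]

/-- the set is contained in one coset of `ℤ^d` -/
theorem one_coset {A : Set (Fin d → ℝ)} (hsep : Sep A) (hdown : ∀ a ∈ A, ∀ j, a - ev j ∈ A)
    {a a' : Fin d → ℝ} (ha : a ∈ A) (ha' : a' ∈ A) : ∃ z : Fin d → ℤ, a' = a + iv z := by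
  classical
  set f : Fin d → ℤ := fun i => ⌊a i - a' i⌋ with hf
  have h1 := down_nat hdown Finset.univ (fun i => (f i).toNat) a ha
  have h2 := down_nat hdown Finset.univ (fun i => (-f i).toNat) a' ha'
  have e := Sep.eq hsep h1 h2 (by
    intro i
    simp only [Finset.mem_univ, if_true]
    have h3 : ((f i).toNat : ℝ) - ((-f i).toNat : ℝ) = (f i : ℝ) := by
      have : ((f i).toNat : ℤ) - ((-f i).toNat : ℤ) = f i := by omega
      exact_mod_cast congrArg (fun z : ℤ => (z : ℝ)) this
    have h4 := Int.floor_le (a i - a' i)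
    have h5 := Int.lt_floor_add_one (a i - a' i)
    have h6 : (f i : ℝ) = (⌊a i - a' i⌋ : ℝ) := rfl
    rw [abs_lt]
    constructor <;> linarith)
  refine ⟨fun i => -f i, ?_⟩
  funext i
  have h7 := congrFun e i
  simp only [Finset.mem_univ, if_true] at h7
  have h3 : ((f i).toNat : ℝ) - ((-f i).toNat : ℝ) = (f i : ℝ) := by
    have : ((f i).toNat : ℤ) - ((-f i).toNat : ℤ) = f i := by omega
    exact_mod_cast congrArg (fun z : ℤ => (z : ℝ)) this
  simp only [Pi.add_apply, iv]
  push_cast
  linarith

end Vale.Agent.P043.H703
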