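import Vale.Agent.P043.H703.Cubes
import Vale.Agent.P043.H703.Rigid
import Vale.Agent.P043.H703.Pigeon

/-!
# P043: aperiodic polycubes, main theorem
-/

set_option autoImplicit false

namespace Vale.Agent.P043.H703

open MeasureTheory Vale.Agent.P043 Vale.Agent.P043.Eu Vale.Agent.P043.H467
  Vale.Agent.P043.H467.Eu

variable {d : ℕ}

/-- every tiling of `ℝ^d` by the cells of `F` is a translate of a tiling of `ℤ^d` by `F` -/
theorem cells_rigid (hd : 2 ≤ d) {F : Finset (Fin d → ℤ)} {A : Set (Fin d → ℝ)}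
    (h : TilesAE (Cells F) A) :
    ∃ (v : Fin d → ℝ) (B : Set (Fin d → ℤ)), IsTiling B F ∧ A = (fun z => v + iv z) '' B := by
  obtain ⟨hcov, hdisj⟩ := h
  set A' : Set (Fin d → ℝ) := {y | ∃ a ∈ A, ∃ p ∈ F, y = a + iv p} with hA'
  have hsub : ∀ a, ∀ p ∈ F, {x | x - (a + iv p) ∈ RF d} ⊆ {x | x - a ∈ Cells F} := by
    intro a p hp x hx
    refine ⟨p, hp, ?_⟩
    rw [sub_sub]
    exact hx
  -- positive overlap of close translates
  have hover : ∀ y y' : Fin d → ℝ, (∀ i, |y i - y' i| < 1) →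
      volume ({x | x - y ∈ RF d} ∩ {x | x - y' ∈ RF d}) ≠ 0 := by
    intro y y' hyy
    have h1 := RF_overlap hd (y' - y) (fun i => by
      have := hyy i
      rw [abs_sub_comm] at this
      simpa only [Pi.sub_apply, gt_iff_lt] using this)
    rw [← vol_shift _ y] at h1
    refine ne_of_gt (h1.trans_le (measure_mono ?_))
    rintro x ⟨hx1, hx2⟩
    refine ⟨hx1, ?_⟩
    have e : x - y - (y' - y) = x - y' := by abel
    rw [e] at hx2
    exact hx2
  have hsep : Sep A' := by
    rintro y ⟨a, ha, p, hp, rfl⟩ y' ⟨a', ha', p', hp', rfl⟩ hne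
    by_contra hcon
    push Not at hcon
    by_cases haa : a = a'
    · subst haa
      apply hne
      have : p = p' := by
        ext i
        have := hcon i
        simp only [Pi.add_apply, iv, add_sub_add_left_eq_sub] at this
        have h1 : |p i - p' i| < 1 := by exact_mod_cast this
        have h2 := Int.abs_lt_one_iff.1 h1
        omega
      rw [this]
    · have h1 := hdisj a ha a' ha' haa
      apply hover _ _ hcon
      exact measure_mono_null (Set.inter_subset_inter (hsub a p hp) (hsub a' p' hp')) h1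
  have htile : TilesAE (RF d) A' := by
    refine ⟨measure_mono_null ?_ hcov, ?_⟩
    · apply Set.compl_subset_compl.2
      intro x hx
      rw [Set.mem_iUnion₂] at hx ⊢
      obtain ⟨a, ha, p, hp, hx⟩ := hx
      refine ⟨a + iv p, ⟨a, ha, p, hp, rfl⟩, ?_⟩
      rw [sub_sub] at hx
      exact hx
    · rintro y ⟨a, ha, p, hp, rfl⟩ y' ⟨a', ha', p', hp', rfl⟩ hne
      by_cases haa : a = a'
      · subst haa
        have : ({x | x - (a + iv p) ∈ RF d} ∩ {x | x - (a + iv p') ∈ RF d} :
            Set (Fin d → ℝ)) = ∅ := by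
          rw [Set.eq_empty_iff_forall_notMem]
          rintro x ⟨h1, h2⟩
          apply hne
          have h1' : x - a - iv p ∈ RF d := by rw [sub_sub]; exact h1
          have h2' : x - a - iv p' ∈ RF d := by rw [sub_sub]; exact h2
          rw [RF_unique h1' h2']
        rw [this]
        simp
      · exact measure_mono_null (Set.inter_subset_inter (hsub a p hp) (hsub a' p' hp'))
          (hdisj a ha a' ha' haa)
  have hcoset : ∀ y ∈ A', ∀ y' ∈ A', ∃ z : Fin d → ℤ, y' = y + iv z := fun y hy y' hy' =>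
    one_coset hsep (fun a ha j => closed_down hsep htile ha j) hy hy'
  -- `A` and `F` are nonempty
  obtain ⟨a0, ha0, p00, hp00⟩ : ∃ a0 ∈ A, ∃ p00, p00 ∈ F := by
    by_contra hemp
    push Not at hemp
    have : (⋃ a ∈ A, {x | x - a ∈ Cells F}) = ∅ := by
      rw [Set.eq_empty_iff_forall_notMem]
      intro x hx
      rw [Set.mem_iUnion₂] at hx
      obtain ⟨a, ha, p, hp, -⟩ := hx
      exact hemp a ha p hp
    rw [this, Set.compl_empty, Measure.measure_univ_eq_zero] at hcov
    exact NeZero.ne (volume : Measure (Fin d → ℝ)) hcov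
  have hs : a0 + iv p00 ∈ A' := ⟨a0, ha0, p00, hp00, rfl⟩
  refine ⟨a0, {z | a0 + iv z ∈ A}, ?_, ?_⟩
  · -- tiling
    have hposg : ∀ g : Fin d → ℤ, volume {x | x - (a0 + iv g) ∈ RF d} ≠ 0 := by
      intro g
      rw [vol_shift]
      exact (RF_pos hd).ne'
    intro g
    apply existsUnique_of_exists_of_unique
    · -- existence
      have hnull := htile.1
      have : ∃ x, x ∈ {x | x - (a0 + iv g) ∈ RF d} ∧ x ∈ ⋃ a ∈ A', {x | x - a ∈ RF d} := by
        by_contra hcon
        push Not at hcon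
        apply hposg g
        exact measure_mono_null (fun x hx => hcon x hx) hnull
      obtain ⟨x, hx1, hx2⟩ := this
      rw [Set.mem_iUnion₂] at hx2
      obtain ⟨y, hy, hxy⟩ := hx2
      obtain ⟨z, hz⟩ := hcoset _ hs y hy
      have h1 : x - a0 - iv g ∈ RF d := by rw [sub_sub]; exact hx1
      have h2 : x - a0 - iv (p00 + z) ∈ RF d := by
        rw [sub_sub, iv_add, ← add_assoc, ← hz]
        exact hxy
      have hgz := RF_unique h1 h2
      obtain ⟨a, ha, p, hp, hap⟩ := hy
      refine ⟨(g - p, p), ?_, hp, sub_add_cancel _ _⟩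
      change a0 + iv (g - p) ∈ A
      have e : a0 + iv (g - p) = a := by
        have e1 : a0 + iv g = a + iv p := by
          rw [← hap, hz, hgz, iv_add, add_assoc]
        rw [iv_sub, ← add_sub_assoc, e1]
        simp
      rw [e]
      exact ha
    · rintro ⟨x1, p⟩ ⟨x2, q⟩ ⟨hp1, hp, hpg⟩ ⟨hq1, hq, hqg⟩
      simp only at hp1 hp hpg hq1 hq hqg
      by_contra hne
      have hx : x1 ≠ x2 := by
        intro h
        apply hne
        subst h
        have : p = q := add_left_cancel (hpg.trans hqg.symm)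
        rw [this]
      have hne' : a0 + iv x1 ≠ a0 + iv x2 := by
        intro h
        exact hx (iv_inj (add_left_cancel h))
      apply hposg g
      refine measure_mono_null ?_ (hdisj _ hp1 _ hq1 hne')
      intro x hx
      have h3 : ∀ r s : Fin d → ℤ, r + s = g → x - (a0 + iv r) - iv s = x - (a0 + iv g) := by
        intro r s hrs
        rw [← hrs, iv_add]; abel
      exact ⟨⟨p, hp, by rw [h3 _ _ hpg]; exact hx⟩, ⟨q, hq, by rw [h3 _ _ hqg]; exact hx⟩⟩
  · ext a
    constructor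
    · intro ha
      obtain ⟨z, hz⟩ := hcoset _ hs (a + iv p00) ⟨a, ha, p00, hp00, rfl⟩
      have e : a = a0 + iv z := by
        have : a + iv p00 = (a0 + iv z) + iv p00 := by rw [hz]; abel
        exact add_right_cancel this
      refine ⟨z, ?_, e.symm⟩
      change a0 + iv z ∈ A
      rw [← e]
      exact ha
    · rintro ⟨z, hz, rfl⟩
      exact hz

/-- tilings of `ℤ^d` by `P` are tilings of `ℝ^d` by the cubes of `P` -/
theorem tiles_of_tiling {P : Finset (Fin d → ℤ)} {B : Set (Fin d → ℤ)} (h : IsTiling B P)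
    (v : Fin d → ℝ) : TilesAE (Cub P) ((fun z => v + iv z) '' B) := by
  refine tiles_larger (Hlf_subset P) (null_cub P) ?_
  have hfl : ∀ (x : Fin d → ℝ) (z : Fin d → ℤ), x - (v + iv z) ∈ Hlf P ↔
      (fun i => ⌊(x - v) i⌋) - z ∈ P := by
    intro x z
    change (fun i => ⌊(x - (v + iv z)) i⌋) ∈ P ↔ _
    have e : (fun i => ⌊(x - (v + iv z)) i⌋) = (fun i => ⌊(x - v) i⌋) - z := by
      funext i
      have e1 : (x - (v + iv z)) i = (x - v) i - (z i : ℝ) := by
        simp only [Pi.sub_apply, Pi.add_apply, iv]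
        ring
      rw [e1, Int.floor_sub_intCast]
      rfl
    rw [e]
  refine ⟨?_, ?_⟩
  · have : (⋃ a ∈ (fun z => v + iv z) '' B, {x | x - a ∈ Hlf P}) = Set.univ := by
      rw [Set.eq_univ_iff_forall]
      intro x
      obtain ⟨⟨b, p⟩, ⟨hb, hp, hbp⟩, -⟩ := h (fun i => ⌊(x - v) i⌋)
      simp only at hb hp hbp
      rw [Set.mem_iUnion₂]
      refine ⟨v + iv b, ⟨b, hb, rfl⟩, (hfl x b).2 ?_⟩
      rw [← hbp, add_sub_cancel_left]
      exact hp
    rw [this]
    simp
  · rintro _ ⟨a, ha, rfl⟩ _ ⟨b, hb, rfl⟩ hab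
    have : ({x | x - (v + iv a) ∈ Hlf P} ∩ {x | x - (v + iv b) ∈ Hlf P} : Set (Fin d → ℝ)) = ∅ := by
      rw [Set.eq_empty_iff_forall_notMem]
      rintro x ⟨hp, hq⟩
      have hp := (hfl x a).1 hp
      have hq := (hfl x b).1 hq
      have e := (h (fun i => ⌊(x - v) i⌋)).unique (y₁ := (a, _)) (y₂ := (b, _))
        ⟨ha, hp, add_sub_cancel _ _⟩ ⟨hb, hq, add_sub_cancel _ _⟩
      apply hab
      rw [(Prod.mk.inj e).1]
    rw [this]
    simp

/-- the tilings of `ℝ^d` by the polycube are exactly the translates of the tilings of `ℤ^d` -/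
theorem rigid_iff (hd : 2 ≤ d) (F : Finset (Fin d → ℤ)) (A : Set (Fin d → ℝ)) :
    TilesAE (Cub (P8 F)) A ↔
      ∃ (v : Fin d → ℝ) (B : Set (Fin d → ℤ)), IsTiling B (P8 F) ∧ A = (fun z => v + iv z) '' B := by
  constructor
  · intro hA
    have hpos : 0 < volume (Cub (P8 F)) := by
      rcases Finset.eq_empty_or_nonempty (P8 F) with h0 | ⟨p, hp⟩
      · exfalso
        have h1 : (⋃ a ∈ A, {x | x - a ∈ Cub (P8 F)}) = ∅ := by
          rw [Set.eq_empty_iff_forall_notMem]
          intro x hx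
          rw [Set.mem_iUnion₂] at hx
          obtain ⟨a, _, hx⟩ := hx
          obtain ⟨p, hp, -⟩ := mem_Cub.1 hx
          rw [h0] at hp
          exact absurd hp (Finset.notMem_empty p)
        have h2 := hA.1
        rw [h1, Set.compl_empty, Measure.measure_univ_eq_zero] at h2
        exact NeZero.ne (volume : Measure (Fin d → ℝ)) h2
      · have hU : IsOpen (Set.univ.pi fun i => Set.Ioo (p i : ℝ) ((p i : ℝ) + 1)) :=
          isOpen_set_pi Set.finite_univ fun i _ => isOpen_Ioo
        refine (hU.measure_pos volume ⟨fun i => (p i : ℝ) + 1 / 2, ?_⟩).trans_le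
          (measure_mono ?_)
        · intro i _
          simp only [Set.mem_Ioo]
          constructor <;> linarith
        · intro x hx
          rw [mem_Cub]
          exact ⟨p, hp, fun i => ⟨(hx i (Set.mem_univ i)).1.le, (hx i (Set.mem_univ i)).2.le⟩⟩
    have hc := countable_of_tiles (Cub_closed _).measurableSet hpos hA
    obtain ⟨v, B, hB, e⟩ := cells_rigid hd ((tiles_Cub_iff F hc).1 hA)
    refine ⟨(8 : ℝ) • v, phi8 d '' B, tiling_up transv8 (mem_P8 F) hB, ?_⟩
    have e8 : ∀ a : Fin d → ℝ, (8 : ℝ) • ((1 / 8 : ℝ) • a) = a := by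
      intro a
      rw [smul_smul]
      norm_num
    have e9 : ∀ z : Fin d → ℤ, (8 : ℝ) • v + iv (phi8 d z) = (8 : ℝ) • (v + iv z) := by
      intro z
      funext i
      change (8 : ℝ) * v i + (((8 : ℤ) • z) i : ℝ) = (8 : ℝ) * (v i + (z i : ℝ))
      rw [Pi.smul_apply, smul_eq_mul]
      push_cast
      ring
    ext a
    constructor
    · intro ha
      have h1 : (1 / 8 : ℝ) • a ∈ {a | (8 : ℝ) • a ∈ A} := by
        change (8 : ℝ) • ((1 / 8 : ℝ) • a) ∈ A
        rw [e8]
        exact ha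
      rw [e] at h1
      obtain ⟨z, hz, hz'⟩ := h1
      refine ⟨phi8 d z, ⟨z, hz, rfl⟩, ?_⟩
      change (8 : ℝ) • v + iv (phi8 d z) = a
      rw [e9, ← e8 a, ← hz']
    · rintro ⟨_, ⟨z, hz, rfl⟩, rfl⟩
      have h1 : v + iv z ∈ {a | (8 : ℝ) • a ∈ A} := by
        rw [e]
        exact ⟨z, hz, rfl⟩
      change (8 : ℝ) • v + iv (phi8 d z) ∈ A
      rw [e9]
      exact h1
  · rintro ⟨v, B, hB, rfl⟩
    exact tiles_of_tiling hB v

/-- `iv` as a linear map -/
def ivL (d : ℕ) : (Fin d → ℤ) →ₗ[ℤ] (Fin d → ℝ) where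
  toFun := iv
  map_add' := iv_add
  map_smul' c z := by
    funext i
    simp [iv]

/-- no tiling of `ℝ^d` has `d - 1` independent periods -/
theorem no_periods_real {P : Finset (Fin d → ℤ)}
    (h : ∀ A : Set (Fin d → ℤ), IsTiling A P → ¬ IsPeriodic A) {v : Fin d → ℝ}
    {B : Set (Fin d → ℤ)} (hB : IsTiling B P) (b : Fin (d - 1) → (Fin d → ℝ))
    (hb : LinearIndependent ℝ b) :
    ∃ i, (fun a => a + b i) '' ((fun z => v + iv z) '' B) ≠ (fun z => v + iv z) '' B := by
  by_contra hcon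
  push Not at hcon
  have hst : ∀ i, b i ∈ stab ((fun z => v + iv z) '' B) := fun i => mem_stab_iff.2 (hcon i)
  have hmem : ∀ z : Fin d → ℤ, v + iv z ∈ (fun z => v + iv z) '' B ↔ z ∈ B := by
    intro z
    constructor
    · rintro ⟨w, hw, e⟩
      have : w = z := iv_inj (add_left_cancel e)
      rwa [← this]
    · intro hz
      exact ⟨z, hz, rfl⟩
  obtain ⟨⟨w, f⟩, ⟨hw, -, -⟩, -⟩ := hB 0
  simp only at hw
  have hz : ∀ i, ∃ z : Fin d → ℤ, b i = iv z := by
    intro i
    have h1 := (hst i (v + iv w)).2 ((hmem w).2 hw)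
    obtain ⟨w', hw', e⟩ := h1
    refine ⟨w' - w, ?_⟩
    have e' : v + iv w' = v + iv w + b i := e
    rw [iv_sub]
    have : b i = (v + iv w + b i) - (v + iv w) := by abel
    rw [this, ← e']
    abel
  choose z hz using hz
  have hzi : LinearIndependent ℤ z := by
    refine LinearIndependent.of_comp (ivL d) ?_
    have e : (ivL d) ∘ z = b := by
      funext i
      exact (hz i).symm
    rw [e]
    refine LinearIndependent.restrict_scalars ?_ hb
    intro r s hrs
    simpa using hrs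
  obtain ⟨i, hi⟩ := no_periods h hB z hzi
  apply hi
  rw [← mem_stab_iff]
  intro g
  have h1 := hst i (v + iv g)
  rw [hz i, add_assoc, ← iv_add, hmem, hmem] at h1
  exact h1

/-- a lattice periodic set has `d - 1` independent periods -/
theorem not_latticePeriodic {A : Set (Fin d → ℝ)} (h : ∀ b : Fin (d - 1) → (Fin d → ℝ),
    LinearIndependent ℝ b → ∃ i, (fun a => a + b i) '' A ≠ A) : ¬ LatticePeriodic A := by
  rintro ⟨b, hb⟩
  obtain ⟨i, hi⟩ := h (fun i => b (Fin.castLE (Nat.sub_le d 1) i))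
    (b.linearIndependent.comp _ (Fin.castLE_injective _))
  apply hi
  rw [← mem_stab_iff]
  intro a
  rw [add_comm]
  exact hb _ a

/-- For every `d ≥ 3` there is an aperiodic polycube. -/
theorem aperiodic_polycube (d : ℕ) (hd : 3 ≤ d) :
    ∃ (P : Finset (Fin d → ℤ)) (Om : Set (Fin d → ℝ)),
      Om = ⋃ p ∈ P, Set.Icc (fun i => (p i : ℝ)) (fun i => (p i : ℝ) + 1) ∧
      IsConnected (interior Om) ∧
      (∃ B : Set (Fin d → ℤ), IsTiling B P) ∧
      (∀ A : Set (Fin d → ℝ), TilesAE Om A ↔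
        ∃ (v : Fin d → ℝ) (B : Set (Fin d → ℤ)), IsTiling B P ∧
          A = (fun z i => v i + (z i : ℝ)) '' B) ∧
      (∀ B : Set (Fin d → ℤ), IsTiling B P → ¬ IsPeriodic B ∧
        ∀ b : Fin (d - 1) → (Fin d → ℤ), LinearIndependent ℤ b →
          ∃ i, (fun a => a + b i) '' B ≠ B) ∧
      ∀ A : Set (Fin d → ℝ), TilesAE Om A → ¬ LatticePeriodic A ∧
        ∀ b : Fin (d - 1) → (Fin d → ℝ), LinearIndependent ℝ b →
          ∃ i, (fun a => a + b i) '' A ≠ A := by
  obtain ⟨F, hne, hc, h1, h2⟩ := discrete_connected d hd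
  obtain ⟨x0, hx0⟩ := hne
  have hconn : IsConnected (interior (Cub (P8 F))) :=
    connected_interior (by omega) F (Op_connected F hx0 fun x hx =>
      rch_of_connected hc (Finset.mem_coe.2 hx0) (Finset.mem_coe.2 hx))
  obtain ⟨h3, h4⟩ := transfer transv8 (mem_P8 F) h1 h2
  have h5 : ∀ A : Set (Fin d → ℝ), TilesAE (Cub (P8 F)) A →
      ∀ b : Fin (d - 1) → (Fin d → ℝ), LinearIndependent ℝ b →
        ∃ i, (fun a => a + b i) '' A ≠ A := by
    intro A hA b hb
    obtain ⟨v, B, hB, rfl⟩ := (rigid_iff (by omega) F A).1 hA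
    exact no_periods_real h4 hB b hb
  exact ⟨P8 F, Cub (P8 F), rfl, hconn, h3, rigid_iff (by omega) F,
    fun B hB => ⟨h4 B hB, fun b hb => no_periods h4 hB b hb⟩,
    fun A hA => ⟨not_latticePeriodic (h5 A hA), h5 A hA⟩⟩

end Vale.Agent.P043.H703
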